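import Vale.Agent.P146.Div.Simpson.Heat

/-!
The three functions of the flow of a positive kernel and their generators.
-/

noncomputable section

open MeasureTheory ProbabilityTheory Filter Set
open scoped Topology

namespace Vale.Agent.P146.Div.Simpson

open Vale.Agent.P157.Parisi (Site.integrable_exp_abs)

/-- A positive kernel `K 0` with the derivatives `K 1, …, K 4`, all dominated by `K 0`. -/
structure Kern (K : ℕ → ℝ → ℝ) (B a c : ℝ) : Prop where
  der : ∀ j, j < 4 → ∀ x, HasDerivAt (K j) (K (j + 1) x) x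
  cont : ∀ j, j ≤ 4 → Continuous (K j)
  pos : ∀ x, 0 < K 0 x
  dom : ∀ j, j ≤ 4 → ∀ x, |K j x| ≤ B * K 0 x
  up : ∀ x, K 0 x ≤ Real.exp (a + c * |x|)
  down : ∀ x, Real.exp (-(a + c * |x|)) ≤ K 0 x
  nn : 0 ≤ B ∧ 0 ≤ c

/-- The smoothed derivatives. -/
def Nj (K : ℕ → ℝ → ℝ) (j : ℕ) (t x : ℝ) : ℝ := N (K j) t x

/-- Their ratios. -/
def rat (K : ℕ → ℝ → ℝ) (j : ℕ) (t x : ℝ) : ℝ := Nj K j t x / Nj K 0 t x

/-- Second logarithmic derivative. -/
def qf (K : ℕ → ℝ → ℝ) (t x : ℝ) : ℝ := rat K 2 t x - rat K 1 t x ^ 2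

/-- Third logarithmic derivative. -/
def pf (K : ℕ → ℝ → ℝ) (t x : ℝ) : ℝ :=
  rat K 3 t x - 3 * rat K 1 t x * rat K 2 t x + 2 * rat K 1 t x ^ 3

/-- The entropy density. -/
def phi0 (K : ℕ → ℝ → ℝ) (t x : ℝ) : ℝ := Nj K 0 t x * Real.log (Nj K 0 t x)

/-- The density of the first square. -/
def phi1 (K : ℕ → ℝ → ℝ) (t x : ℝ) : ℝ := Nj K 0 t x * rat K 1 t x ^ 2

/-- The density of the second square. -/
def phi2 (K : ℕ → ℝ → ℝ) (t x : ℝ) : ℝ := Nj K 0 t x * qf K t x ^ 2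

/-- The density of the last derivative. -/
def phi3 (K : ℕ → ℝ → ℝ) (t x : ℝ) : ℝ :=
  Nj K 0 t x * (pf K t x ^ 2 - 2 * qf K t x ^ 3)

variable {K : ℕ → ℝ → ℝ} {B a c : ℝ}

lemma Kern.expBd (h : Kern K B a c) {j : ℕ} (hj : j ≤ 4) : ExpBd (K j) := by
  refine ⟨h.cont j hj, B * Real.exp a, c, mul_nonneg h.nn.1 (Real.exp_pos _).le, h.nn.2, fun x => ?_⟩
  refine (h.dom j hj x).trans ?_
  rw [mul_assoc, ← Real.exp_add]
  exact mul_le_mul_of_nonneg_left (h.up x) h.nn.1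

lemma Kern.cont_Nj (h : Kern K B a c) {j : ℕ} (hj : j ≤ 4) :
    Continuous fun p : ℝ × ℝ => Nj K j p.1 p.2 := (h.expBd hj).continuous_N

lemma Kern.Nj_pos (h : Kern K B a c) (t x : ℝ) : 0 < Nj K 0 t x := by
  have hi := (h.expBd (Nat.zero_le 4)).integrable_affine x (Real.sqrt (1 - t))
  refine lt_of_lt_of_le ?_ (integral_mono (f := fun g : ℝ => Real.exp (-(a + c * |x|)) *
    Real.exp (-(c * Real.sqrt (1 - t)) * |g|)) (g := fun g => K 0 (x + Real.sqrt (1 - t) * g))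
    ((Site.integrable_exp_abs _).const_mul _) hi fun g => ?_)
  · rw [integral_const_mul]
    exact mul_pos (Real.exp_pos _) (integral_exp_pos (Site.integrable_exp_abs _))
  · refine le_trans ?_ (h.down _)
    beta_reduce
    rw [← Real.exp_add]
    refine Real.exp_le_exp.2 ?_
    have := mul_le_mul_of_nonneg_left (abs_add_le x (Real.sqrt (1 - t) * g)) h.nn.2
    rw [abs_mul, abs_of_nonneg (Real.sqrt_nonneg _), mul_add, ← mul_assoc] at this
    linarith

lemma Kern.abs_rat_le (h : Kern K B a c) {j : ℕ} (hj : j ≤ 4) (t x : ℝ) : |rat K j t x| ≤ B := by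
  rw [rat, abs_div, abs_of_pos (h.Nj_pos t x), div_le_iff₀ (h.Nj_pos t x), Nj, Nj, N, N,
    ← integral_const_mul]
  exact abs_integral_le_integral_abs.trans (integral_mono
    ((h.expBd hj).integrable_affine _ _).abs
    (((h.expBd (Nat.zero_le 4)).integrable_affine _ _).const_mul B) fun g => h.dom j hj _)

lemma Kern.cont_rat (h : Kern K B a c) {j : ℕ} (hj : j ≤ 4) :
    Continuous fun p : ℝ × ℝ => rat K j p.1 p.2 :=
  (h.cont_Nj hj).div (h.cont_Nj (Nat.zero_le 4)) fun p => (h.Nj_pos p.1 p.2).ne'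

/-- The exponential bound for the normalisation on `[0, 1]`. -/
lemma Kern.bound_N0 (h : Kern K B a c) : ∃ A, 0 ≤ A ∧ ∀ t ∈ Icc (0 : ℝ) 1, ∀ x,
    Nj K 0 t x ≤ Real.exp (A + c * |x|) ∧ Real.exp (-(A + c * |x|)) ≤ Nj K 0 t x := by
  set M := ∫ g, Real.exp (c * |g|) ∂gaussianReal 0 1
  set L := ∫ g, Real.exp (-c * |g|) ∂gaussianReal 0 1
  have hM : 0 < M := integral_exp_pos (Site.integrable_exp_abs c)
  have hL : 0 < L := integral_exp_pos (Site.integrable_exp_abs (-c))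
  refine ⟨|a| + |Real.log M| + |Real.log L|, by positivity, fun t ht x => ?_⟩
  have hi := (h.expBd (Nat.zero_le 4)).integrable_affine x (Real.sqrt (1 - t))
  have hg : ∀ g : ℝ, c * |x + Real.sqrt (1 - t) * g| ≤ c * |x| + c * |g| := fun g => by
    rw [← mul_add]
    refine mul_le_mul_of_nonneg_left ((abs_add_le _ _).trans (add_le_add le_rfl ?_)) h.nn.2
    rw [abs_mul, abs_of_nonneg (Real.sqrt_nonneg _)]
    exact mul_le_of_le_one_left (abs_nonneg _) (Real.sqrt_le_one.2 (by linarith [ht.1]))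
  constructor
  · calc Nj K 0 t x ≤ ∫ g, Real.exp (a + c * |x|) * Real.exp (c * |g|) ∂gaussianReal 0 1 := by
          refine integral_mono hi ((Site.integrable_exp_abs c).const_mul _) fun g => ?_
          refine (h.up _).trans ?_
          rw [← Real.exp_add]
          exact Real.exp_le_exp.2 (by linarith [hg g])
      _ = Real.exp (a + c * |x| + Real.log M) := by
          rw [integral_const_mul, Real.exp_add (a + c * |x|) (Real.log M), Real.exp_log hM]
      _ ≤ _ := Real.exp_le_exp.2 (by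
          linarith [le_abs_self a, le_abs_self (Real.log M), abs_nonneg (Real.log L)])
  · calc Real.exp (-(|a| + |Real.log M| + |Real.log L| + c * |x|))
        ≤ Real.exp (-(a + c * |x|) + Real.log L) := Real.exp_le_exp.2 (by
          linarith [le_abs_self a, neg_abs_le (Real.log L), abs_nonneg (Real.log M)])
      _ = ∫ g, Real.exp (-(a + c * |x|)) * Real.exp (-c * |g|) ∂gaussianReal 0 1 := by
          rw [integral_const_mul, Real.exp_add, Real.exp_log hL]
      _ ≤ _ := by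
          refine integral_mono ((Site.integrable_exp_abs (-c)).const_mul _) hi fun g => ?_
          refine le_trans ?_ (h.down _)
          beta_reduce
          rw [← Real.exp_add]
          exact Real.exp_le_exp.2 (by linarith [hg g])

/-- `N₀` times a polynomial in the ratios, `log N₀` included, is bounded along the flow. -/
lemma Kern.flowBd (h : Kern K B a c) (P : ℝ → ℝ → ℝ → ℝ → ℝ)
    (hP : Continuous fun v : ℝ × ℝ × ℝ × ℝ => P v.1 v.2.1 v.2.2.1 v.2.2.2) (l₀ l₁ : ℝ) :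
    FlowBd fun t x => Nj K 0 t x * (l₀ + l₁ * Real.log (Nj K 0 t x)) *
      P (rat K 1 t x) (rat K 2 t x) (rat K 3 t x) (rat K 4 t x) := by
  refine ⟨((h.cont_Nj (Nat.zero_le 4)).mul (continuous_const.add (continuous_const.mul
    ((h.cont_Nj (Nat.zero_le 4)).log fun p => (h.Nj_pos p.1 p.2).ne')))).mul
    (hP.comp ((h.cont_rat (by norm_num)).prodMk ((h.cont_rat (by norm_num)).prodMk
      ((h.cont_rat (by norm_num)).prodMk (h.cont_rat (by norm_num)))))), ?_⟩
  obtain ⟨Q, hQ⟩ := ((isCompact_Icc (a := -B) (b := B)).prod ((isCompact_Icc (a := -B) (b := B)).prod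
    ((isCompact_Icc (a := -B) (b := B)).prod (isCompact_Icc (a := -B) (b := B))))
    ).exists_bound_of_continuousOn hP.continuousOn
  obtain ⟨A, hA0, hA⟩ := h.bound_N0
  have hQ0 : 0 ≤ Q := (norm_nonneg _).trans (hQ (0, 0, 0, 0) (by simp [h.nn.1]))
  have hc := h.nn.2
  refine ⟨Real.exp A * (|l₀| + |l₁| * (A + c)) * Q, c + 1, by positivity, by linarith,
    fun t ht x => ?_⟩
  obtain ⟨u1, u2⟩ := hA t ht x
  have hpos := h.Nj_pos t x
  have hlog : |Real.log (Nj K 0 t x)| ≤ A + c * |x| := by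
    rw [abs_le]
    refine ⟨?_, ?_⟩
    · simpa using Real.log_le_log (Real.exp_pos _) u2
    · simpa using Real.log_le_log hpos u1
  have e1 : 1 ≤ Real.exp |x| := Real.one_le_exp (abs_nonneg x)
  have e2 : |x| ≤ Real.exp |x| := Vale.Agent.P157.Parisi.Full.Deriv.abs_le_exp_abs x
  have hl : |l₀ + l₁ * Real.log (Nj K 0 t x)| ≤ (|l₀| + |l₁| * (A + c)) * Real.exp |x| := by
    refine (abs_add_le _ _).trans ?_
    rw [abs_mul, add_mul, mul_assoc]
    refine add_le_add (le_mul_of_one_le_right (abs_nonneg _) e1)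
      (mul_le_mul_of_nonneg_left (hlog.trans ?_) (abs_nonneg _))
    rw [add_mul]
    exact add_le_add (le_mul_of_one_le_right hA0 e1) (mul_le_mul_of_nonneg_left e2 hc)
  have hv := hQ (rat K 1 t x, rat K 2 t x, rat K 3 t x, rat K 4 t x)
    ⟨abs_le.1 (h.abs_rat_le (by norm_num) t x), abs_le.1 (h.abs_rat_le (by norm_num) t x),
      abs_le.1 (h.abs_rat_le (by norm_num) t x), abs_le.1 (h.abs_rat_le (by norm_num) t x)⟩
  rw [Real.norm_eq_abs] at hv
  rw [abs_mul, abs_mul, abs_of_pos hpos]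
  calc Nj K 0 t x * |l₀ + l₁ * Real.log (Nj K 0 t x)| *
      |P (rat K 1 t x) (rat K 2 t x) (rat K 3 t x) (rat K 4 t x)|
      ≤ Real.exp (A + c * |x|) * ((|l₀| + |l₁| * (A + c)) * Real.exp |x|) * Q := by
        refine mul_le_mul (mul_le_mul u1 hl (abs_nonneg _) (Real.exp_pos _).le) hv (abs_nonneg _) ?_
        positivity
    _ = _ := by rw [Real.exp_add, add_mul c 1, one_mul, Real.exp_add]; ring

lemma Kern.flowBd' (h : Kern K B a c) (P : ℝ → ℝ → ℝ → ℝ → ℝ)
    (hP : Continuous fun v : ℝ × ℝ × ℝ × ℝ => P v.1 v.2.1 v.2.2.1 v.2.2.2) :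
    FlowBd fun t x => Nj K 0 t x * P (rat K 1 t x) (rat K 2 t x) (rat K 3 t x) (rat K 4 t x) := by
  simpa using h.flowBd P hP 1 0

lemma Kern.hasDerivAt_Nj (h : Kern K B a c) {j : ℕ} (hj : j < 4) (t x : ℝ) :
    HasDerivAt (Nj K j t) (Nj K (j + 1) t x) x :=
  hasDerivAt_N_x (h.expBd hj.le) (h.expBd hj) (h.der j hj) t x

lemma Kern.hasDerivAt_rat (h : Kern K B a c) {j : ℕ} (hj : j < 4) (t x : ℝ) :
    HasDerivAt (rat K j t) (rat K (j + 1) t x - rat K j t x * rat K 1 t x) x := by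
  refine ((h.hasDerivAt_Nj hj t x).div (h.hasDerivAt_Nj (j := 0) (by norm_num) t x)
    (h.Nj_pos t x).ne').congr_deriv ?_
  have := (h.Nj_pos t x).ne'
  simp only [rat, zero_add]
  field_simp

/-- The velocity along the flow. -/
def vel (K : ℕ → ℝ → ℝ) (j : ℕ) (t z : ℝ) : ℝ :=
  z / (2 * Real.sqrt t) * Nj K (j + 1) t (Real.sqrt t * z) - Nj K (j + 2) t (Real.sqrt t * z) / 2

lemma Kern.hasDerivAt_path (h : Kern K B a c) {j : ℕ} (hj : j + 2 ≤ 4) {t : ℝ}
    (ht : t ∈ Ioo (0 : ℝ) 1) (z : ℝ) :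
    HasDerivAt (fun s => Nj K j s (Real.sqrt s * z)) (vel K j t z) t :=
  hasDerivAt_N_flow (h.expBd (by omega)) (h.expBd (by omega)) (h.expBd (by omega))
    (h.der j (by omega)) (h.der (j + 1) (by omega)) ht.1 ht.2 z

lemma Kern.hasDerivAt_av0 (h : Kern K B a c) {t : ℝ} (ht : t ∈ Ioo (0 : ℝ) 1) :
    HasDerivAt (av (phi0 K)) (av (fun t x => phi1 K t x / 2) t) t := by
  refine hasDerivAt_av
    (X1 := fun t x => Nj K 0 t x * (1 + 1 * Real.log (Nj K 0 t x)) * rat K 1 t x)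
    (X2 := fun t x => Nj K 0 t x * (1 + 1 * Real.log (Nj K 0 t x)) * rat K 2 t x +
      Nj K 0 t x * rat K 1 t x ^ 2) ?_ ?_ ?_ ?_ (fun t _ x => ?_) (fun t ht z => ?_) ht
  · convert h.flowBd (fun _ _ _ _ => 1) continuous_const 0 1 using 2
    funext x
    simp [phi0]
  · exact h.flowBd (fun r _ _ _ => r) continuous_fst 1 1
  · obtain ⟨c1, C1, k1, p1, q1, b1⟩ := h.flowBd (fun _ r _ _ => r) continuous_snd.fst 1 1
    obtain ⟨c2, C2, k2, p2, q2, b2⟩ := h.flowBd' (fun r _ _ _ => r ^ 2) (continuous_fst.pow 2)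
    refine ⟨c1.add c2, C1 + C2, k1 + k2, add_nonneg p1 p2, add_nonneg q1 q2, fun t ht x => ?_⟩
    refine (abs_add_le _ _).trans ?_
    rw [add_mul C1]
    refine add_le_add ((b1 t ht x).trans ?_) ((b2 t ht x).trans ?_) <;>
      refine mul_le_mul_of_nonneg_left (Real.exp_le_exp.2
        (mul_le_mul_of_nonneg_right ?_ (abs_nonneg x))) ‹_› <;> linarith
  · convert h.flowBd' (fun r _ _ _ => r ^ 2 / 2) ((continuous_fst.pow 2).div_const 2) using 2
    funext x
    simp [phi1, mul_div_assoc]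
  · have hN := h.hasDerivAt_Nj (j := 0) (by norm_num) t x
    have hne := (h.Nj_pos t x).ne'
    refine ((hN.mul (((hN.log hne).const_mul 1).const_add 1)).mul
      (h.hasDerivAt_rat (j := 1) (by norm_num) t x)).congr_deriv ?_
    simp only [Pi.mul_apply, rat]
    field_simp
    ring
  · have hN := h.hasDerivAt_path (j := 0) (by norm_num) ht z
    have hne := (h.Nj_pos t (Real.sqrt t * z)).ne'
    refine (hN.mul (hN.log hne)).congr_deriv ?_
    simp only [phi1, rat, vel]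
    generalize Real.log (Nj K 0 t (Real.sqrt t * z)) = ℓ
    generalize Nj K 0 t (Real.sqrt t * z) = N₀ at hne ⊢
    field_simp
    ring

lemma Kern.hasDerivAt_av1 (h : Kern K B a c) {t : ℝ} (ht : t ∈ Ioo (0 : ℝ) 1) :
    HasDerivAt (av (phi1 K)) (av (phi2 K) t) t := by
  refine hasDerivAt_av
    (X1 := fun t x => Nj K 0 t x * (2 * rat K 1 t x * rat K 2 t x - rat K 1 t x ^ 3))
    (X2 := fun t x => Nj K 0 t x * (2 * rat K 2 t x ^ 2 + 2 * rat K 1 t x * rat K 3 t x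
      - 5 * rat K 1 t x ^ 2 * rat K 2 t x + 2 * rat K 1 t x ^ 4)) ?_ ?_ ?_ ?_
    (fun t _ x => ?_) (fun t ht z => ?_) ht
  · exact h.flowBd' (fun r _ _ _ => r ^ 2) (continuous_fst.pow 2)
  · exact h.flowBd' (fun r s _ _ => 2 * r * s - r ^ 3) (by fun_prop)
  · exact h.flowBd' (fun r s u _ => 2 * s ^ 2 + 2 * r * u - 5 * r ^ 2 * s + 2 * r ^ 4) (by fun_prop)
  · exact h.flowBd' (fun r s _ _ => (s - r ^ 2) ^ 2) (by fun_prop)
  · have hN := h.hasDerivAt_Nj (j := 0) (by norm_num) t x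
    have r1 := h.hasDerivAt_rat (j := 1) (by norm_num) t x
    have r2 := h.hasDerivAt_rat (j := 2) (by norm_num) t x
    have hne := (h.Nj_pos t x).ne'
    refine (hN.mul (((r1.const_mul 2).mul r2).sub (r1.pow 3))).congr_deriv ?_
    simp only [Pi.sub_apply, Pi.mul_apply, Pi.pow_apply, rat, Nat.reduceAdd, Nat.reduceSub,
      Nat.cast_ofNat]
    field_simp
    ring
  · have n0 := h.hasDerivAt_path (j := 0) (by norm_num) ht z
    have n1 := h.hasDerivAt_path (j := 1) (by norm_num) ht z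
    have hne := (h.Nj_pos t (Real.sqrt t * z)).ne'
    refine (n0.mul ((n1.div n0 hne).pow 2)).congr_deriv ?_
    simp only [Pi.div_apply, Pi.pow_apply, phi2, qf, rat, vel, Nat.reduceAdd, Nat.reduceSub,
      pow_one, Nat.cast_ofNat]
    generalize Nj K 0 t (Real.sqrt t * z) = N₀ at hne ⊢
    field_simp
    ring

lemma Kern.hasDerivAt_av2 (h : Kern K B a c) {t : ℝ} (ht : t ∈ Ioo (0 : ℝ) 1) :
    HasDerivAt (av (phi2 K)) (av (phi3 K) t) t := by
  let q₁ : ℝ → ℝ → ℝ → ℝ := fun r s u => u - 2 * r * s + r ^ 3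
  let q₂ : ℝ → ℝ → ℝ → ℝ → ℝ := fun r s u w =>
    w - 2 * s ^ 2 - 2 * r * u + 5 * r ^ 2 * s - 2 * r ^ 4
  refine hasDerivAt_av
    (X1 := fun t x => Nj K 0 t x * (fun r s u (_ : ℝ) =>
      2 * (s - r ^ 2) * q₁ r s u - (s - r ^ 2) ^ 2 * r)
        (rat K 1 t x) (rat K 2 t x) (rat K 3 t x) (rat K 4 t x))
    (X2 := fun t x => Nj K 0 t x * (fun r s u w =>
      2 * (q₁ r s u ^ 2 + (s - r ^ 2) * q₂ r s u w) - 4 * (s - r ^ 2) * q₁ r s u * r
        - (s - r ^ 2) ^ 2 * s + 2 * (s - r ^ 2) ^ 2 * r ^ 2)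
        (rat K 1 t x) (rat K 2 t x) (rat K 3 t x) (rat K 4 t x)) ?_ ?_ ?_ ?_
    (fun t _ x => ?_) (fun t ht z => ?_) ht
  · exact h.flowBd' (fun r s _ _ => (s - r ^ 2) ^ 2) (by fun_prop)
  · exact h.flowBd' (fun r s u (_ : ℝ) =>
      2 * (s - r ^ 2) * q₁ r s u - (s - r ^ 2) ^ 2 * r) (by simp only [q₁]; fun_prop)
  · exact h.flowBd' (fun r s u w =>
      2 * (q₁ r s u ^ 2 + (s - r ^ 2) * q₂ r s u w) - 4 * (s - r ^ 2) * q₁ r s u * r
        - (s - r ^ 2) ^ 2 * s + 2 * (s - r ^ 2) ^ 2 * r ^ 2) (by simp only [q₁, q₂]; fun_prop)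
  · exact h.flowBd' (fun r s u _ => (u - 3 * r * s + 2 * r ^ 3) ^ 2 - 2 * (s - r ^ 2) ^ 3)
      (by fun_prop)
  · have hN := h.hasDerivAt_Nj (j := 0) (by norm_num) t x
    have r1 := h.hasDerivAt_rat (j := 1) (by norm_num) t x
    have r2 := h.hasDerivAt_rat (j := 2) (by norm_num) t x
    have r3 := h.hasDerivAt_rat (j := 3) (by norm_num) t x
    have hne := (h.Nj_pos t x).ne'
    have hq := r2.sub (r1.pow 2)
    have hq1 := (r3.sub ((r1.const_mul 2).mul r2)).add (r1.pow 3)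
    refine (hN.mul (((hq.const_mul 2).mul hq1).sub ((hq.pow 2).mul r1))).congr_deriv ?_
    simp only [Pi.sub_apply, Pi.add_apply, Pi.mul_apply, Pi.pow_apply, q₁, q₂, rat, Nat.reduceAdd,
      Nat.reduceSub, pow_one, Nat.cast_ofNat]
    field_simp
    ring
  · have n0 := h.hasDerivAt_path (j := 0) (by norm_num) ht z
    have n1 := h.hasDerivAt_path (j := 1) (by norm_num) ht z
    have n2 := h.hasDerivAt_path (j := 2) (by norm_num) ht z
    have hne := (h.Nj_pos t (Real.sqrt t * z)).ne'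
    refine (n0.mul (((n2.div n0 hne).sub ((n1.div n0 hne).pow 2)).pow 2)).congr_deriv ?_
    simp only [Pi.sub_apply, Pi.div_apply, Pi.pow_apply, phi3, qf, pf, q₁, q₂, rat, vel,
      Nat.reduceAdd, Nat.reduceSub, pow_one, Nat.cast_ofNat]
    generalize Nj K 0 t (Real.sqrt t * z) = N₀ at hne ⊢
    field_simp
    ring

end Vale.Agent.P146.Div.Simpson
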