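import Vale.Agent.P157.Full.Deriv.Step

/-!
Gaussian smoothing along the flow `t ↦ (t, √t z)`, and Gaussian means along it.
-/

noncomputable section

open MeasureTheory ProbabilityTheory Filter Set
open scoped Topology

namespace Vale.Agent.P146.Div.Simpson

open Vale.Agent.P157.Parisi (Site.integrable_exp_abs)

/-- Continuous, with at most exponential growth. -/
def ExpBd (u : ℝ → ℝ) : Prop :=
  Continuous u ∧ ∃ C c : ℝ, 0 ≤ C ∧ 0 ≤ c ∧ ∀ x, |u x| ≤ C * Real.exp (c * |x|)

/-- The smoothing of `u` at time `t`. -/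
def N (u : ℝ → ℝ) (t x : ℝ) : ℝ := ∫ g, u (x + Real.sqrt (1 - t) * g) ∂gaussianReal 0 1

/-- The Gaussian mean of `Φ` along the flow. -/
def av (Φ : ℝ → ℝ → ℝ) (t : ℝ) : ℝ := ∫ z, Φ t (Real.sqrt t * z) ∂gaussianReal 0 1

lemma exp_affine_le {c : ℝ} (hc : 0 ≤ c) {x a X A : ℝ} (hx : |x| ≤ X) (ha : |a| ≤ A) (g : ℝ) :
    Real.exp (c * |x + a * g|) ≤ Real.exp (c * X) * Real.exp (c * A * |g|) := by
  rw [← Real.exp_add, mul_assoc, ← mul_add]
  refine Real.exp_le_exp.2 (mul_le_mul_of_nonneg_left ?_ hc)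
  refine (abs_add_le _ _).trans (add_le_add hx ?_)
  rw [abs_mul]
  exact mul_le_mul_of_nonneg_right ha (abs_nonneg g)

lemma ExpBd.integrable_affine {u : ℝ → ℝ} (hu : ExpBd u) (x a : ℝ) :
    Integrable (fun g => u (x + a * g)) (gaussianReal 0 1) := by
  obtain ⟨hc, C, c, hC, hc0, hb⟩ := hu
  refine ((Site.integrable_exp_abs (c * |a|)).const_mul (C * Real.exp (c * |x|))).mono'
    (by fun_prop) (ae_of_all _ fun g => (hb _).trans ?_)
  rw [mul_assoc]
  exact mul_le_mul_of_nonneg_left (exp_affine_le hc0 le_rfl le_rfl g) hC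

lemma N_one (u : ℝ → ℝ) (x : ℝ) : N u 1 x = u x := by
  simp [N]

lemma ExpBd.continuous_N {u : ℝ → ℝ} (hu : ExpBd u) :
    Continuous fun p : ℝ × ℝ => N u p.1 p.2 := by
  obtain ⟨hc, C, c, hC, hc0, hb⟩ := hu
  refine continuous_iff_continuousAt.2 fun p₀ => ?_
  refine continuousAt_of_dominated (bound := fun g => C * (Real.exp (c * (|p₀.2| + 1)) *
      Real.exp (c * (Real.sqrt (1 - p₀.1) + 1) * |g|))) ?_ ?_ ?_ ?_
  · exact Eventually.of_forall fun p => (by fun_prop : Continuous _).aestronglyMeasurable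
  · have e1 : ∀ᶠ p : ℝ × ℝ in 𝓝 p₀, |p.2| ≤ |p₀.2| + 1 :=
      ((continuous_abs.comp continuous_snd).tendsto p₀).eventually_le_const (lt_add_one _)
    have e2 : ∀ᶠ p : ℝ × ℝ in 𝓝 p₀,
        Real.sqrt (1 - p.1) ≤ Real.sqrt (1 - p₀.1) + 1 :=
      ((Real.continuous_sqrt.comp (continuous_const.sub continuous_fst)).tendsto p₀).eventually_le_const
        (lt_add_one _)
    filter_upwards [e1, e2] with p h1 h2
    refine Eventually.of_forall fun g => (hb _).trans (mul_le_mul_of_nonneg_left ?_ hC)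
    exact exp_affine_le hc0 h1 (by rwa [abs_of_nonneg (Real.sqrt_nonneg _)]) g
  · exact ((Site.integrable_exp_abs _).const_mul _).const_mul C
  · exact Eventually.of_forall fun g => (by fun_prop : Continuous _).continuousAt

lemma hasDerivAt_N_x {u u' : ℝ → ℝ} (hu : ExpBd u) (hu' : ExpBd u')
    (hd : ∀ y, HasDerivAt u (u' y) y) (t x : ℝ) : HasDerivAt (N u t) (N u' t x) x := by
  obtain ⟨hc', C, c, hC, hc0, hb⟩ := id hu'
  refine (hasDerivAt_integral_of_dominated_loc_of_deriv_le (μ := gaussianReal 0 1) (x₀ := x)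
    (F := fun y g => u (y + Real.sqrt (1 - t) * g))
    (F' := fun y g => u' (y + Real.sqrt (1 - t) * g))
    (bound := fun g => C * (Real.exp (c * (|x| + 1)) * Real.exp (c * Real.sqrt (1 - t) * |g|)))
    (Metric.ball_mem_nhds x one_pos)
    (Eventually.of_forall fun y => (hu.integrable_affine y _).aestronglyMeasurable)
    (hu.integrable_affine x _) (hu'.integrable_affine x _).aestronglyMeasurable ?_
    (((Site.integrable_exp_abs _).const_mul _).const_mul C) ?_).2
  · refine Eventually.of_forall fun g y hy => (hb _).trans (mul_le_mul_of_nonneg_left ?_ hC)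
    rw [Metric.mem_ball, Real.dist_eq] at hy
    refine exp_affine_le hc0 ?_ (abs_of_nonneg (Real.sqrt_nonneg _)).le g
    linarith [abs_sub_abs_le_abs_sub y x]
  · refine Eventually.of_forall fun g y _ => ?_
    exact ((hd _).comp y ((hasDerivAt_id' y).add_const (Real.sqrt (1 - t) * g))).congr_deriv
      (mul_one _)

lemma hasDerivAt_N_flow {u u' u'' : ℝ → ℝ} (hu : ExpBd u) (hu' : ExpBd u') (hu'' : ExpBd u'')
    (hd : ∀ y, HasDerivAt u (u' y) y) (hd' : ∀ y, HasDerivAt u' (u'' y) y)
    {t : ℝ} (h0 : 0 < t) (h1 : t < 1) (z : ℝ) :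
    HasDerivAt (fun s => N u s (Real.sqrt s * z))
      (z / (2 * Real.sqrt t) * N u' t (Real.sqrt t * z) - N u'' t (Real.sqrt t * z) / 2) t := by
  obtain ⟨hc', C, c, hC, hc0, hb⟩ := id hu'
  obtain ⟨hc'', C', c', hC', hc0', hb'⟩ := id hu''
  have st := Real.sqrt_pos.2 h0
  have s1 := Real.sqrt_pos.2 (sub_pos.2 h1)
  have hint := hu'.integrable_affine (Real.sqrt t * z) (Real.sqrt (1 - t))
  have hmem : Ioo (t / 2) ((1 + t) / 2) ∈ 𝓝 t := Ioo_mem_nhds (by linarith) (by linarith)
  have hd1 := (hasDerivAt_integral_of_dominated_loc_of_deriv_le (μ := gaussianReal 0 1) (x₀ := t)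
    (F := fun s g => u (Real.sqrt s * z + Real.sqrt (1 - s) * g))
    (F' := fun s g => u' (Real.sqrt s * z + Real.sqrt (1 - s) * g) *
      (z / (2 * Real.sqrt s) - g / (2 * Real.sqrt (1 - s))))
    (bound := fun g => (C * Real.exp (c * |z|) *
      ((|z| / (2 * Real.sqrt (t / 2))) + 1 / (2 * Real.sqrt ((1 - t) / 2)))) *
        Real.exp ((c + 1) * |g|))
    hmem
    (Eventually.of_forall fun s => (hu.integrable_affine _ _).aestronglyMeasurable)
    (hu.integrable_affine _ _)
    (by have := hu'.1; fun_prop) ?_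
    ((Site.integrable_exp_abs _).const_mul _) ?_).2
  · refine hd1.congr_deriv ?_
    have hi : Integrable (fun g => g * u' (Real.sqrt t * z + Real.sqrt (1 - t) * g))
        (gaussianReal 0 1) := by
      refine ((Site.integrable_exp_abs (c * Real.sqrt (1 - t) + 1)).const_mul
        (C * Real.exp (c * |Real.sqrt t * z|))).mono' (by fun_prop) (ae_of_all _ fun g => ?_)
      rw [Real.norm_eq_abs, abs_mul, mul_comm, add_mul, one_mul, Real.exp_add, ← mul_assoc,
        mul_assoc C]
      exact mul_le_mul ((hb _).trans (mul_le_mul_of_nonneg_left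
        (exp_affine_le hc0 le_rfl (abs_of_nonneg (Real.sqrt_nonneg _)).le g) hC))
        (Vale.Agent.P157.Parisi.Full.Deriv.abs_le_exp_abs g) (abs_nonneg _) (by positivity)
    have ib : ∫ g, g * u' (Real.sqrt t * z + Real.sqrt (1 - t) * g) ∂gaussianReal 0 1
        = Real.sqrt (1 - t) * N u'' t (Real.sqrt t * z) := by
      rw [N, ← integral_const_mul]
      refine Vale.Agent.P157.Parisi.Full.Deriv.ibp
        (φ := fun g => u' (Real.sqrt t * z + Real.sqrt (1 - t) * g))
        (K := C * Real.exp (c * |Real.sqrt t * z|) +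
          Real.sqrt (1 - t) * (C' * Real.exp (c' * |Real.sqrt t * z|)))
        (c := c * Real.sqrt (1 - t) + c' * Real.sqrt (1 - t)) ?_ (by fun_prop) ?_ ?_
      · intro g
        refine ((hd' _).comp g (((hasDerivAt_id' g).const_mul (Real.sqrt (1 - t))).const_add
          (Real.sqrt t * z))).congr_deriv ?_
        ring
      · intro g
        refine ((hb _).trans (mul_le_mul_of_nonneg_left
          (exp_affine_le hc0 le_rfl (abs_of_nonneg (Real.sqrt_nonneg _)).le g) hC)).trans ?_
        rw [← mul_assoc]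
        gcongr
        · exact le_add_of_nonneg_right (by positivity)
        · exact le_add_of_nonneg_right (by positivity)
      · intro g
        rw [abs_mul, abs_of_nonneg (Real.sqrt_nonneg _)]
        refine (mul_le_mul_of_nonneg_left ((hb' _).trans (mul_le_mul_of_nonneg_left
          (exp_affine_le hc0' le_rfl (abs_of_nonneg (Real.sqrt_nonneg _)).le g) hC'))
          (Real.sqrt_nonneg _)).trans ?_
        rw [← mul_assoc C', ← mul_assoc]
        gcongr
        · exact le_add_of_nonneg_left (by positivity)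
        · exact le_add_of_nonneg_left (by positivity)
    have e : ∀ g, u' (Real.sqrt t * z + Real.sqrt (1 - t) * g) *
          (z / (2 * Real.sqrt t) - g / (2 * Real.sqrt (1 - t))) =
        z / (2 * Real.sqrt t) * u' (Real.sqrt t * z + Real.sqrt (1 - t) * g) -
          1 / (2 * Real.sqrt (1 - t)) * (g * u' (Real.sqrt t * z + Real.sqrt (1 - t) * g)) :=
      fun g => by ring
    simp only [e]
    rw [integral_sub (hint.const_mul _) (hi.const_mul _), integral_const_mul, integral_const_mul,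
      ib]
    simp only [N]
    field_simp
  · refine Eventually.of_forall fun g s hs => ?_
    have a1 : Real.sqrt s ≤ 1 := Real.sqrt_le_one.2 (by linarith [hs.2])
    have a2 : Real.sqrt (1 - s) ≤ 1 := Real.sqrt_le_one.2 (by linarith [hs.1])
    have b1 : |z / (2 * Real.sqrt s) - g / (2 * Real.sqrt (1 - s))| ≤
        (|z| / (2 * Real.sqrt (t / 2)) + 1 / (2 * Real.sqrt ((1 - t) / 2))) * Real.exp |g| := by
      have p1 := Real.sqrt_pos.2 (half_pos h0)
      have p2 := Real.sqrt_pos.2 (half_pos (sub_pos.2 h1))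
      have q1 : Real.sqrt (t / 2) ≤ Real.sqrt s := Real.sqrt_le_sqrt hs.1.le
      have q2 : Real.sqrt ((1 - t) / 2) ≤ Real.sqrt (1 - s) :=
        Real.sqrt_le_sqrt (by linarith [hs.2])
      refine (abs_sub _ _).trans ?_
      rw [add_mul]
      refine add_le_add ?_ ?_
      · rw [abs_div, abs_of_pos (mul_pos two_pos (p1.trans_le q1))]
        refine le_trans ?_ (le_mul_of_one_le_right (by positivity) (Real.one_le_exp (abs_nonneg g)))
        gcongr
      · rw [abs_div, abs_of_pos (mul_pos two_pos (p2.trans_le q2)), div_mul_eq_mul_div, one_mul]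
        gcongr
        exact Vale.Agent.P157.Parisi.Full.Deriv.abs_le_exp_abs g
    rw [Real.norm_eq_abs, abs_mul]
    refine (mul_le_mul ((hb _).trans (mul_le_mul_of_nonneg_left
      (exp_affine_le hc0 (X := |z|) (A := 1) ?_ ?_ g) hC)) b1 (abs_nonneg _)
        (by positivity)).trans_eq ?_
    · rw [abs_mul, abs_of_nonneg (Real.sqrt_nonneg _)]
      exact mul_le_of_le_one_left (abs_nonneg _) a1
    · rwa [abs_of_nonneg (Real.sqrt_nonneg _)]
    · rw [mul_one, add_mul c 1, one_mul, Real.exp_add]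
      ring
  · refine Eventually.of_forall fun g s hs => ?_
    have p1 : s ≠ 0 := by linarith [hs.1]
    have p2 : 1 - s ≠ 0 := by linarith [hs.2]
    refine ((hd _).comp s (((Real.hasDerivAt_sqrt p1).mul_const z).add
      ((((hasDerivAt_id s).const_sub 1).sqrt p2).mul_const g))).congr_deriv ?_
    simp only [id_eq, Pi.add_apply]
    ring

/-- Continuous, with a bound of exponential type in space, uniform on `[0, 1]`. -/
def FlowBd (Φ : ℝ → ℝ → ℝ) : Prop :=
  Continuous (fun p : ℝ × ℝ => Φ p.1 p.2) ∧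
    ∃ C c : ℝ, 0 ≤ C ∧ 0 ≤ c ∧ ∀ t ∈ Icc (0 : ℝ) 1, ∀ x, |Φ t x| ≤ C * Real.exp (c * |x|)

lemma FlowBd.integrable {Φ : ℝ → ℝ → ℝ} (hΦ : FlowBd Φ) {t : ℝ} (ht : t ∈ Icc (0 : ℝ) 1) :
    Integrable (fun z => Φ t (Real.sqrt t * z)) (gaussianReal 0 1) := by
  obtain ⟨hc, C, c, hC, hc0, hb⟩ := hΦ
  refine ((Site.integrable_exp_abs (c * Real.sqrt t)).const_mul C).mono'
    (hc.comp (continuous_const.prodMk (continuous_const.mul continuous_id))).aestronglyMeasurable
    (ae_of_all _ fun z => (hb t ht _).trans ?_)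
  rw [abs_mul, abs_of_nonneg (Real.sqrt_nonneg _), mul_assoc]

lemma FlowBd.continuousOn_av {Φ : ℝ → ℝ → ℝ} (hΦ : FlowBd Φ) :
    ContinuousOn (av Φ) (Icc 0 1) := by
  obtain ⟨hc, C, c, hC, hc0, hb⟩ := id hΦ
  refine continuousOn_of_dominated (bound := fun z => C * Real.exp (c * |z|))
    (fun t ht => (hΦ.integrable ht).aestronglyMeasurable) (fun t ht => ae_of_all _ fun z => ?_)
    ((Site.integrable_exp_abs c).const_mul C) (ae_of_all _ fun z => ?_)
  · refine (hb t ht _).trans (mul_le_mul_of_nonneg_left (Real.exp_le_exp.2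
      (mul_le_mul_of_nonneg_left ?_ hc0)) hC)
    rw [abs_mul, abs_of_nonneg (Real.sqrt_nonneg _)]
    exact mul_le_of_le_one_left (abs_nonneg _) (Real.sqrt_le_one.2 ht.2)
  · exact (hc.comp (continuous_id.prodMk (Real.continuous_sqrt.mul continuous_const))).continuousOn

/-- The flow identity: the derivative of a mean is the mean of the generator. -/
lemma hasDerivAt_av {Φ X1 X2 D : ℝ → ℝ → ℝ} (hΦ : FlowBd Φ) (h1 : FlowBd X1) (h2 : FlowBd X2)
    (hD : FlowBd D) (hx : ∀ t ∈ Ioo (0 : ℝ) 1, ∀ x, HasDerivAt (X1 t) (X2 t x) x)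
    (ht : ∀ t ∈ Ioo (0 : ℝ) 1, ∀ z, HasDerivAt (fun s => Φ s (Real.sqrt s * z))
      (D t (Real.sqrt t * z) - X2 t (Real.sqrt t * z) / 2 +
        z / (2 * Real.sqrt t) * X1 t (Real.sqrt t * z)) t)
    {t : ℝ} (htI : t ∈ Ioo (0 : ℝ) 1) : HasDerivAt (av Φ) (av D t) t := by
  have hI : t ∈ Icc (0 : ℝ) 1 := Ioo_subset_Icc_self htI
  obtain ⟨cD, C0, c0, hC0, hc00, hb0⟩ := id hD
  obtain ⟨c1, C1, k1, hC1, hk1, hb1⟩ := id h1
  obtain ⟨c2, C2, k2, hC2, hk2, hb2⟩ := id h2
  have st := Real.sqrt_pos.2 htI.1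
  have hmem : Ioo (t / 2) ((1 + t) / 2) ∈ 𝓝 t :=
    Ioo_mem_nhds (by linarith [htI.1]) (by linarith [htI.2])
  have key := (hasDerivAt_integral_of_dominated_loc_of_deriv_le (μ := gaussianReal 0 1) (x₀ := t)
    (F := fun s z => Φ s (Real.sqrt s * z))
    (F' := fun s z => D s (Real.sqrt s * z) - X2 s (Real.sqrt s * z) / 2 +
      z / (2 * Real.sqrt s) * X1 s (Real.sqrt s * z))
    (bound := fun z => (C0 + C2 / 2 + C1 / (2 * Real.sqrt (t / 2))) *
      Real.exp ((c0 + k2 + k1 + 1) * |z|))
    hmem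
    (Eventually.of_forall fun s => (hΦ.1.comp
      (continuous_const.prodMk (continuous_const.mul continuous_id))).aestronglyMeasurable)
    (hΦ.integrable hI)
    ?_ ?_ ((Site.integrable_exp_abs _).const_mul _) ?_).2
  · refine key.congr_deriv ?_
    have iD := hD.integrable hI
    have i2 := h2.integrable hI
    have i1 : Integrable (fun z => z * X1 t (Real.sqrt t * z)) (gaussianReal 0 1) := by
      refine ((Site.integrable_exp_abs (k1 + 1)).const_mul C1).mono'
        (continuous_id.mul (c1.comp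
          (continuous_const.prodMk (continuous_const.mul continuous_id)))).aestronglyMeasurable
        (ae_of_all _ fun z => ?_)
      rw [Real.norm_eq_abs, abs_mul, mul_comm, add_mul, one_mul, Real.exp_add, ← mul_assoc]
      refine mul_le_mul ((hb1 t hI _).trans ?_) (Vale.Agent.P157.Parisi.Full.Deriv.abs_le_exp_abs z)
        (abs_nonneg _) (by positivity)
      refine mul_le_mul_of_nonneg_left
        (Real.exp_le_exp.2 (mul_le_mul_of_nonneg_left ?_ hk1)) hC1
      rw [abs_mul, abs_of_nonneg st.le]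
      exact mul_le_of_le_one_left (abs_nonneg _) (Real.sqrt_le_one.2 hI.2)
    have ib : ∫ z, z * X1 t (Real.sqrt t * z) ∂gaussianReal 0 1 = Real.sqrt t * av X2 t := by
      rw [av, ← integral_const_mul]
      refine Vale.Agent.P157.Parisi.Full.Deriv.ibp (φ := fun z => X1 t (Real.sqrt t * z))
        (K := C1 + Real.sqrt t * C2) (c := k1 * Real.sqrt t + k2 * Real.sqrt t) ?_
        (continuous_const.mul (c2.comp
          (continuous_const.prodMk (continuous_const.mul continuous_id)))) ?_ ?_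
      · intro z
        refine ((hx t htI _).comp z ((hasDerivAt_id' z).const_mul (Real.sqrt t))).congr_deriv ?_
        ring
      · intro z
        refine (hb1 t hI _).trans ?_
        rw [abs_mul, abs_of_nonneg st.le, ← mul_assoc]
        gcongr
        · exact le_add_of_nonneg_right (by positivity)
        · exact le_add_of_nonneg_right (by positivity)
      · intro z
        rw [abs_mul, abs_of_nonneg st.le]
        refine (mul_le_mul_of_nonneg_left (hb2 t hI _) st.le).trans ?_
        rw [abs_mul, abs_of_nonneg st.le, ← mul_assoc k2, ← mul_assoc]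
        gcongr
        · exact le_add_of_nonneg_left hC1
        · exact le_add_of_nonneg_left (by positivity)
    have e : ∀ z, z / (2 * Real.sqrt t) * X1 t (Real.sqrt t * z) =
        1 / (2 * Real.sqrt t) * (z * X1 t (Real.sqrt t * z)) := fun z => by ring
    simp only [e]
    rw [integral_add (iD.sub' (i2.div_const 2)) (i1.const_mul _), integral_const_mul,
      integral_sub iD (i2.div_const 2), integral_div, ib]
    simp only [av]
    field_simp
    ring
  · have hp : Continuous fun z : ℝ => (t, Real.sqrt t * z) :=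
      continuous_const.prodMk (continuous_const.mul continuous_id)
    exact (((cD.comp hp).sub ((c2.comp hp).div_const 2)).add
      ((continuous_id.div_const (2 * Real.sqrt t)).mul (c1.comp hp))).aestronglyMeasurable
  · refine Eventually.of_forall fun z s hs => ?_
    have sI : s ∈ Icc (0 : ℝ) 1 := ⟨by linarith [hs.1, htI.1], by linarith [hs.2, htI.2]⟩
    have hz : |Real.sqrt s * z| ≤ |z| := by
      rw [abs_mul, abs_of_nonneg (Real.sqrt_nonneg _)]
      exact mul_le_of_le_one_left (abs_nonneg _) (Real.sqrt_le_one.2 sI.2)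
    have p1 := Real.sqrt_pos.2 (half_pos htI.1)
    have q1 : Real.sqrt (t / 2) ≤ Real.sqrt s := Real.sqrt_le_sqrt hs.1.le
    have bd : ∀ {C k : ℝ} {X : ℝ → ℝ → ℝ}, 0 ≤ C → 0 ≤ k →
        (∀ t ∈ Icc (0 : ℝ) 1, ∀ x, |X t x| ≤ C * Real.exp (k * |x|)) →
        |X s (Real.sqrt s * z)| ≤ C * Real.exp (k * |z|) := fun hC hk hb =>
      (hb s sI _).trans (mul_le_mul_of_nonneg_left
        (Real.exp_le_exp.2 (mul_le_mul_of_nonneg_left hz hk)) hC)
    have up : ∀ {k : ℝ}, k ≤ c0 + k2 + k1 + 1 →
        Real.exp (k * |z|) ≤ Real.exp ((c0 + k2 + k1 + 1) * |z|) := fun hk =>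
      Real.exp_le_exp.2 (mul_le_mul_of_nonneg_right hk (abs_nonneg _))
    rw [Real.norm_eq_abs, add_mul, add_mul]
    refine (abs_add_le _ _).trans (add_le_add ((abs_sub _ _).trans (add_le_add ?_ ?_)) ?_)
    · exact (bd hC0 hc00 hb0).trans (mul_le_mul_of_nonneg_left (up (by linarith)) hC0)
    · rw [abs_div, abs_two, div_mul_eq_mul_div]
      exact div_le_div_of_nonneg_right
        ((bd hC2 hk2 hb2).trans (mul_le_mul_of_nonneg_left (up (by linarith)) hC2)) two_pos.le
    · rw [abs_mul, abs_div, abs_of_pos (mul_pos two_pos (p1.trans_le q1))]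
      calc |z| / (2 * Real.sqrt s) * |X1 s (Real.sqrt s * z)|
          ≤ Real.exp |z| / (2 * Real.sqrt (t / 2)) * (C1 * Real.exp (k1 * |z|)) := by
            gcongr
            · exact Vale.Agent.P157.Parisi.Full.Deriv.abs_le_exp_abs z
            · exact bd hC1 hk1 hb1
        _ = C1 / (2 * Real.sqrt (t / 2)) * Real.exp ((k1 + 1) * |z|) := by
            rw [add_mul, one_mul, Real.exp_add]; ring
        _ ≤ _ := mul_le_mul_of_nonneg_left (up (by linarith)) (by positivity)
  · exact Eventually.of_forall fun z s hs =>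
      ht s ⟨by linarith [hs.1, htI.1], by linarith [hs.2, htI.2]⟩ z

end Vale.Agent.P146.Div.Simpson
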